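import Vale.Agent.P038.MathlibUsed

/-!
# Oriented graphs and second neighbourhoods (problem P038)
-/

namespace Vale.Agent.P038

/-- An oriented graph: no loops, no pair of opposite arcs. -/
structure OGraph (V : Type*) where
  /-- `arc u v` means that there is an arc from `u` to `v`. -/
  arc : V → V → Prop
  /-- There are no loops. -/
  loopless : ∀ v, ¬ arc v v
  /-- There are no two opposite arcs. -/
  asymm : ∀ u v, arc u v → ¬ arc v u

variable {V : Type*} [Fintype V]

open Classical in
/-- The out-neighbourhood `N₁⁺(v)`. -/
noncomputable def N1 (D : OGraph V) (v : V) : Finset V :=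
  Finset.univ.filter fun u => D.arc v u

open Classical in
/-- The second out-neighbourhood `N₂⁺(v)`: the vertices other than `v`, not out-neighbours of `v`,
which are reached from `v` by a path with two arcs. -/
noncomputable def N2 (D : OGraph V) (v : V) : Finset V :=
  Finset.univ.filter fun x => x ≠ v ∧ ¬ D.arc v x ∧ ∃ u, D.arc v u ∧ D.arc u x

/-- Two vertices are joined by an arc, in one of the two directions. -/
def Joined (D : OGraph V) (u v : V) : Prop := D.arc u v ∨ D.arc v u

/-- No vertex dominates a triangle: no vertex has three pairwise joined out-neighbours. This holds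
in particular when the underlying graph has no `K₄`. -/
def NoOutTriangle (D : OGraph V) : Prop :=
  ∀ v a b c, D.arc v a → D.arc v b → D.arc v c →
    Joined D a b → Joined D b c → Joined D a c → False

theorem mem_N1 {D : OGraph V} {v u : V} : u ∈ N1 D v ↔ D.arc v u := by
  classical
  simp [N1]

theorem mem_N2 {D : OGraph V} {v x : V} :
    x ∈ N2 D v ↔ x ≠ v ∧ ¬ D.arc v x ∧ ∃ u, D.arc v u ∧ D.arc u x := by
  classical
  simp [N2]

end Vale.Agent.P038
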