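import Mathlib
import Vale.Agent.P038.Defs

/-!
# Weighted Mantel inequality for arcs inside a vertex set
-/

namespace Vale.Agent.P038

open Finset

variable {V : Type*} [Fintype V]

open Classical in
/-- weight of the arcs from `S` to `T`. -/
noncomputable def ew (D : OGraph V) (w : V → ℝ) (S T : Finset V) : ℝ :=
  ∑ x ∈ S, ∑ y ∈ T, if D.arc x y then w x * w y else 0

open Classical in
theorem ew_eq_inter (D : OGraph V) (w : V → ℝ) (S T : Finset V) :
    ew D w S T = ∑ x ∈ S, w x * ∑ y ∈ N1 D x ∩ T, w y := by
  unfold ew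
  refine Finset.sum_congr rfl fun x _ => ?_
  rw [Finset.mul_sum, ← Finset.sum_filter]
  refine Finset.sum_congr ?_ fun _ _ => rfl
  ext y
  simp [mem_N1, and_comm]

open Classical in
theorem ew_nonneg (D : OGraph V) (w : V → ℝ) (hw : ∀ v, 0 ≤ w v) (S T : Finset V) :
    0 ≤ ew D w S T := by
  unfold ew
  refine Finset.sum_nonneg fun x _ => Finset.sum_nonneg fun y _ => ?_
  split_ifs
  · exact mul_nonneg (hw x) (hw y)
  · exact le_rfl

open Classical in
theorem ew_mono_left (D : OGraph V) (w : V → ℝ) (hw : ∀ v, 0 ≤ w v) {S S' : Finset V}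
    (h : S ⊆ S') (T : Finset V) : ew D w S T ≤ ew D w S' T := by
  unfold ew
  refine Finset.sum_le_sum_of_subset_of_nonneg h fun x _ _ => Finset.sum_nonneg fun y _ => ?_
  split_ifs
  · exact mul_nonneg (hw x) (hw y)
  · exact le_rfl

open Classical in
/-- arcs between two sets, in both directions, have weight at most the product. -/
theorem ew_add_le (D : OGraph V) (w : V → ℝ) (hw : ∀ v, 0 ≤ w v) (S T : Finset V) :
    ew D w S T + ew D w T S ≤ (∑ x ∈ S, w x) * ∑ y ∈ T, w y := by
  have h2 : ew D w T S = ∑ x ∈ S, ∑ y ∈ T, if D.arc y x then w y * w x else 0 := by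
    unfold ew
    exact Finset.sum_comm
  rw [h2, ew, ← Finset.sum_add_distrib, Finset.sum_mul_sum]
  refine Finset.sum_le_sum fun x _ => ?_
  rw [← Finset.sum_add_distrib]
  refine Finset.sum_le_sum fun y _ => ?_
  have hxy := mul_nonneg (hw x) (hw y)
  by_cases h : D.arc x y
  · have h' := D.asymm x y h
    simp [h, h']
  · by_cases h' : D.arc y x
    · simp [h, h']; nlinarith
    · simp [h, h']; exact hxy

open Classical in
/-- Weighted Mantel: if `S` contains no three pairwise joined vertices, the arcs inside `S` have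
weight at most `w(S)^2 / 4`. -/
theorem mantel (D : OGraph V) (w : V → ℝ) (hw : ∀ v, 0 ≤ w v) (S : Finset V)
    (hS : ∀ a ∈ S, ∀ b ∈ S, ∀ c ∈ S, Joined D a b → Joined D b c → Joined D a c → False) :
    ew D w S S ≤ (∑ x ∈ S, w x) ^ 2 / 4 := by
  set W := ∑ x ∈ S, w x with hW
  have hW0 : 0 ≤ W := Finset.sum_nonneg fun x _ => hw x
  -- degree
  let dg : V → ℝ := fun x => ∑ y ∈ S, if Joined D x y then w y else 0
  set e := ew D w S S with he
  have he0 : 0 ≤ e := ew_nonneg D w hw S S
  -- sum of degrees
  have h1 : ∑ x ∈ S, w x * dg x = 2 * e := by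
    have : ∀ x ∈ S, w x * dg x = (∑ y ∈ S, if D.arc x y then w x * w y else 0) +
        ∑ y ∈ S, if D.arc y x then w y * w x else 0 := by
      intro x _
      simp only [dg]
      rw [Finset.mul_sum, ← Finset.sum_add_distrib]
      refine Finset.sum_congr rfl fun y _ => ?_
      by_cases h : D.arc x y
      · have h' := D.asymm x y h
        simp [Joined, h, h']
      · by_cases h' : D.arc y x
        · simp [Joined, h, h', mul_comm]
        · simp [Joined, h, h']
    rw [Finset.sum_congr rfl this, Finset.sum_add_distrib]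
    have h2 : ∑ x ∈ S, ∑ y ∈ S, (if D.arc y x then w y * w x else 0) = e := by
      rw [he, ew]; exact Finset.sum_comm
    rw [h2, he, ew]; ring
  -- for an arc x y inside S the degrees add up to at most W
  have h3 : ∀ x ∈ S, ∀ y ∈ S, D.arc x y → dg x + dg y ≤ W := by
    intro x hx y hy hxy
    simp only [dg]
    rw [← Finset.sum_add_distrib, hW]
    refine Finset.sum_le_sum fun z hz => ?_
    by_cases h : Joined D x z
    · have h' : ¬ Joined D y z := fun h' => hS x hx y hy z hz (Or.inl hxy) h' h
      simp [h, h']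
    · by_cases h' : Joined D y z
      · simp [h, h']
      · simp [h, h', hw z]
  -- sum of squares of degrees
  have h4 : ∑ x ∈ S, w x * dg x ^ 2 ≤ W * e := by
    have key : ∑ x ∈ S, w x * dg x ^ 2 =
        ∑ x ∈ S, ∑ y ∈ S, if D.arc x y then w x * w y * (dg x + dg y) else 0 := by
      have : ∀ x ∈ S, w x * dg x ^ 2 = (∑ y ∈ S, if D.arc x y then w x * w y * dg x else 0) +
          ∑ y ∈ S, if D.arc y x then w y * w x * dg x else 0 := by
        intro x _
        have hh : w x * dg x ^ 2 = (w x * dg x) * ∑ y ∈ S, if Joined D x y then w y else 0 := by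
          simp only [dg]; ring
        rw [hh, Finset.mul_sum, ← Finset.sum_add_distrib]
        refine Finset.sum_congr rfl fun y _ => ?_
        by_cases h : D.arc x y
        · have h' := D.asymm x y h
          simp only [Joined, h, h', true_or, if_true, if_false]; ring
        · by_cases h' : D.arc y x
          · simp only [Joined, h, h', or_true, if_true, if_false]; ring
          · simp [Joined, h, h']
      rw [Finset.sum_congr rfl this, Finset.sum_add_distrib]
      have h5 : ∑ x ∈ S, ∑ y ∈ S, (if D.arc y x then w y * w x * dg x else 0) =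
          ∑ x ∈ S, ∑ y ∈ S, (if D.arc x y then w x * w y * dg y else 0) := Finset.sum_comm
      rw [h5, ← Finset.sum_add_distrib]
      refine Finset.sum_congr rfl fun x _ => ?_
      rw [← Finset.sum_add_distrib]
      refine Finset.sum_congr rfl fun y _ => ?_
      by_cases h : D.arc x y
      · simp only [h, if_true]; ring
      · simp [h]
    rw [key, he, ew, Finset.mul_sum]
    refine Finset.sum_le_sum fun x hx => ?_
    rw [Finset.mul_sum]
    refine Finset.sum_le_sum fun y hy => ?_
    by_cases h : D.arc x y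
    · simp only [h, if_true]
      have := h3 x hx y hy h
      have hxy := mul_nonneg (hw x) (hw y)
      nlinarith
    · simp [h]
  -- Cauchy-Schwarz
  have h6 : (∑ x ∈ S, w x * dg x) ^ 2 ≤ W * ∑ x ∈ S, w x * dg x ^ 2 := by
    have := Finset.sum_mul_sq_le_sq_mul_sq S (fun x => Real.sqrt (w x))
      (fun x => Real.sqrt (w x) * dg x)
    have e1 : ∑ x ∈ S, Real.sqrt (w x) * (Real.sqrt (w x) * dg x) = ∑ x ∈ S, w x * dg x := by
      refine Finset.sum_congr rfl fun x _ => ?_
      rw [← mul_assoc, Real.mul_self_sqrt (hw x)]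
    have e2 : ∑ x ∈ S, Real.sqrt (w x) ^ 2 = W := by
      rw [hW]
      exact Finset.sum_congr rfl fun x _ => Real.sq_sqrt (hw x)
    have e3 : ∑ x ∈ S, (Real.sqrt (w x) * dg x) ^ 2 = ∑ x ∈ S, w x * dg x ^ 2 := by
      refine Finset.sum_congr rfl fun x _ => ?_
      rw [mul_pow, Real.sq_sqrt (hw x)]
    rw [e1, e2, e3] at this
    exact this
  rw [h1] at h6
  have h7 : (2 * e) ^ 2 ≤ W * (W * e) := h6.trans (mul_le_mul_of_nonneg_left h4 hW0)
  by_cases hz : e = 0
  · rw [hz]; positivity
  · have hpos : 0 < e := lt_of_le_of_ne he0 (Ne.symm hz)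
    have : e * (4 * e) ≤ e * W ^ 2 := by nlinarith
    have := le_of_mul_le_mul_left this hpos
    linarith

end Vale.Agent.P038
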